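import Vale.Agent.P366.H222.CL.Sup
import Vale.Agent.P366.H353.CL.Div
import Vale.Agent.P366.H375.CH.Sup

/-! The Penrose inequality for data foliated by the parallel surfaces of a convex body: the final
form. -/

open MeasureTheory Metric Filter Topology Set
open scoped ContDiff ENNReal

noncomputable section
namespace Vale.Agent.P366.CL

open Vale.Agent.P366.Kerr (IsCut IsSchwSlice)
open Vale.Agent.P366.Convex (IsSupport)

/-- The Penrose inequality for data foliated by the parallel surfaces of a convex body. -/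
theorem final_CL {n : ℕ} (hn : 3 ≤ n) {h lam W : Stmt.E n → ℝ} (hh : IsSupport h)
    {D D' : Stmt.Exterior n} (hO : IsCut D' D) (hL : IsLeaves h lam W D') (hD : D'.DEC)
    (hT : D'.Trapped) (hle : ∀ y, 0 < D'.F y → LeafAt lam W D'.g D'.K y) (hAF : D.IsAF)
    {m : ℝ} (hm : D.IsEnergy m) :
    (D.Amin ≤ D.area D'.F ∧ D.area D'.F ≠ ⊤ ∧ 0 < m ∧
      (D.Amin.toReal / Stmt.omega n) ^ (((n : ℝ) - 2) / ((n : ℝ) - 1)) / 2 ≤
        ((D.area D'.F).toReal / Stmt.omega n) ^ (((n : ℝ) - 2) / ((n : ℝ) - 1)) / 2 ∧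
      ((D.area D'.F).toReal / Stmt.omega n) ^ (((n : ℝ) - 2) / ((n : ℝ) - 1)) / 2 ≤ m) ∧
    ((∀ y, 0 < D'.F y → StrictAt lam W D'.g D'.K y) →
      ((D.area D'.F).toReal / Stmt.omega n) ^ (((n : ℝ) - 2) / ((n : ℝ) - 1)) / 2 = m →
      ∃ c r₀ f, IsSchwSlice c r₀ f D') := by
  have : Fact (3 ≤ n) := ⟨hn⟩
  obtain ⟨C, hU, hY, -⟩ := CH.exists_cone hh
  exact sup_CL hh hU hY hL (fun hL y hy => div_XL' hL hy) hO hAF hD hT hm hle

end Vale.Agent.P366.CL
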