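import Vale.Agent.P366.H222.CL.Schw
import Vale.Agent.P366.H208.CL.Pos
import Vale.Agent.P366.H707.CL.Eq
import Vale.Agent.P366.CL.DefsE

/-! Data foliated by the parallel surfaces of a convex body, the case of equality: the assembly. -/

open MeasureTheory Metric Filter Topology Set
open scoped ContDiff ENNReal

noncomputable section
namespace Vale.Agent.P366.CL

open Vale.Agent.P366 (pd E)
open Vale.Agent.P366.H353.N
open Vale.Agent.P366.KSL
open Vale.Agent.P366.KSL.Rig (dp_nn dp_rho cd_rho rho_ne sum_nn cd_nn)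
open Vale.Agent.P366.Kerr (NullCone Psi pt sp ksG indG indK lapse con tng nul schw IsSchwSlice)
open Vale.Agent.P366.KSN (Y)

variable {n : ℕ} {C : NullCone n} {lam W : E n → ℝ} {D : Stmt.Exterior n} {c x y : E n} {k r₀ : ℝ}

lemma pos_ev (hy : 0 < D.F y) : ∀ᶠ z in 𝓝 y, 0 < D.F z :=
  (D.dom.1.continuous.continuousAt).eventually (lt_mem_nhds hy)

/-- the first derivatives of `λ = ‖y - c‖ - k` -/
lemma spd_lam_rad (hlam : ∀ y, 0 ≤ D.F y → lam y = ‖y - c‖ - k) (hyc : y ≠ c) (hy : 0 < D.F y)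
    (i : Fin n) : Stmt.pd i lam =ᶠ[𝓝 y] Rig.nn c i := by
  have hid : ∀ᶠ s in 𝓝 ‖y - c‖, HasDerivAt (fun s : ℝ => s - k) ((fun _ => 1) s) s :=
    Eventually.of_forall fun s => (hasDerivAt_id s).sub_const k
  have h1 := spd_rad hyc hid i
  have h2 : lam =ᶠ[𝓝 y] fun z => ‖z - c‖ - k := by
    filter_upwards [pos_ev hy] with z hz using hlam z hz.le
  filter_upwards [h1, h2.eventually_nhds] with z hz h3
  have h4 : Stmt.pd i lam z = Stmt.pd i (fun z => ‖z - c‖ - k) z := by
    unfold Stmt.pd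
    exact Filter.EventuallyEq.lineDeriv_eq h3
  rw [h4, hz, one_mul]

/-- the second derivatives of `λ = ‖y - c‖ - k` -/
lemma spd2_lam_rad (hlam : ∀ y, 0 ≤ D.F y → lam y = ‖y - c‖ - k) (hyc : y ≠ c)
    (hy : 0 < D.F y) (i j : Fin n) : Stmt.pd i (Stmt.pd j lam) y =
      (kd i j - Rig.nn c i y * Rig.nn c j y) / ‖y - c‖ := by
  have h1 := spd_lam_rad hlam hyc hy j
  have h2 := dp_nn hyc j i
  have h3 : Stmt.pd i (Stmt.pd j lam) y = Stmt.pd i (Rig.nn c j) y := by
    unfold Stmt.pd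
    exact h1.lineDeriv_eq
  rw [h3, KSN.X2.stmt_pd h2.1, h2.2]
  have : kd j i = kd i j := by unfold kd; simp only [eq_comm]
  rw [this]
  ring

/-- **The case of equality**, from the pieces. -/
theorem schw_CL [Fact (3 ≤ n)] (hL : IsLeafExt C lam W D) (h0 : 0 < r₀)
    (dom : ∀ y, 0 ≤ D.F y ↔ r₀ ≤ ‖y - c‖) (hlam : ∀ y, 0 ≤ D.F y → lam y = ‖y - c‖ - k)
    {w q : ℝ → ℝ} (hs : ∀ r, r₀ ≤ r → ContDiffAt ℝ ∞ w r ∧ ContDiffAt ℝ ∞ q r)
    (hwq : ∀ y, 0 ≤ D.F y → W y = w ‖y - c‖ ∧ kap lam D.K y = q ‖y - c‖ ∧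
      W y / (1 + W y) + kap lam D.K y ^ 2 = (r₀ / ‖y - c‖) ^ (n - 2))
    (hT : ∀ y, 0 ≤ D.F y → rat lam W D.K y < 1)
    (hσ : ∀ y, 0 < D.F y → ∀ i j, sig lam D.K i j y = 0)
    (hα : ∀ y, 0 < D.F y → ∀ i, alf lam W D.K i y = 0)
    (h4 : ∀ y, 0 < D.F y → CL.nn lam D.K y =
      (1 + W y) * ∑ i, Stmt.pd i (kap lam D.K) y * Stmt.pd i lam y) :
    ∃ f, IsSchwSlice c r₀ f D := by
  have hn3 := Fact.out (p := 3 ≤ n)
  have hne : ∀ y, 0 ≤ D.F y → y ≠ c := by
    intro y hy h
    have := (dom y).1 hy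
    rw [h, sub_self, norm_zero] at this
    linarith
  -- points at each distance
  have hpt : ∀ r, r₀ ≤ r → ∃ y : E n, ‖y - c‖ = r ∧ 0 ≤ D.F y := by
    intro r hr
    have hr0 : 0 < r := by linarith
    have : Nontrivial (E n) := by
      have : 0 < n := by omega
      exact ⟨⟨EuclideanSpace.single ⟨0, this⟩ 1, 0, by simp⟩⟩
    obtain ⟨e, he⟩ := exists_norm_eq (E n) hr0.le
    refine ⟨c + e, ?_, ?_⟩
    · rw [add_sub_cancel_left, he]
    · rw [dom, add_sub_cancel_left, he]
      exact hr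
  refine schw_of_rad h0 dom hs ?_ ?_ ?_ ?_ ?_
  · intro r hr
    obtain ⟨y, rfl, hy⟩ := hpt r hr
    rw [← (hwq y hy).1]
    exact CLam.one_W_pos hL hy
  · intro r hr
    obtain ⟨y, rfl, hy⟩ := hpt r hr
    rw [← (hwq y hy).1, ← (hwq y hy).2.1]
    exact hT y hy
  · intro r hr
    obtain ⟨y, rfl, hy⟩ := hpt r hr
    have h1 := CLam.one_W_pos hL hy
    have h2 := (hwq y hy).2.2
    rw [(hwq y hy).1] at h1
    rw [(hwq y hy).1, (hwq y hy).2.1] at h2
    rw [← h2]
    field_simp
    ring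
  · intro y hy i j
    have h1 := hL.met y hy i j
    have h2 : ∀ i, Stmt.pd i lam y = Rig.nn c i y := fun i =>
      KSL.ext_bdr (A := Stmt.pd i lam) (B := Rig.nn c i) hL.dom
        (fun y hy => (H375.cd_pd (hL.smL y hy) i).continuousAt)
        (fun y hy => (cd_nn (hne y hy) i).continuousAt)
        (fun y hy => (spd_lam_rad hlam (hne y hy.le) hy i).eq_of_nhds) hy
    rw [h1, h2, h2, (hwq y hy).1]
    rfl
  · intro y hy i j
    refine KSL.ext_bdr (A := fun y => D.K y i j)
      (B := fun y => (1 + w ‖y - c‖) * deriv q ‖y - c‖ * (Rig.nn c i y * Rig.nn c j y) +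
          q ‖y - c‖ * ((kd i j - Rig.nn c i y * Rig.nn c j y) / ‖y - c‖)) hL.dom
        (fun y hy => (D.smooth i j).2.continuous.continuousAt) ?_ ?_ hy
    · intro y hy
      have hr := (dom y).1 hy
      have ew : ContinuousAt (fun z : E n => w ‖z - c‖) y :=
        ContinuousAt.comp (g := w) (hs _ hr).1.continuousAt (tendsto_rho y c)
      have eq : ContinuousAt (fun z : E n => q ‖z - c‖) y :=
        ContinuousAt.comp (g := q) (hs _ hr).2.continuousAt (tendsto_rho y c)
      have edq : ContinuousAt (deriv q) ‖y - c‖ := by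
        have h1 : ContDiffAt ℝ ∞ (fderiv ℝ q) ‖y - c‖ := (hs _ hr).2.fderiv_right (by simp)
        have h2 : ContinuousAt (fun s => fderiv ℝ q s 1) ‖y - c‖ :=
          (h1.clm_apply contDiffAt_const).continuousAt
        exact h2
      have ed : ContinuousAt (fun z : E n => deriv q ‖z - c‖) y :=
        ContinuousAt.comp (g := deriv q) edq (tendsto_rho y c)
      have er : ContinuousAt (fun z : E n => ‖z - c‖) y := tendsto_rho y c
      have en : ∀ i, ContinuousAt (Rig.nn c i) y := fun i => (cd_nn (hne y hy) i).continuousAt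
      exact (((continuousAt_const.add ew).mul ed).mul ((en i).mul (en j))).add
        (eq.mul (((continuousAt_const.sub ((en i).mul (en j)))).div er (rho_ne (hne y hy))))
    · intro y hy
      have hyc := hne y hy.le
      have hr := (dom y).1 hy.le
      have hl := fun i => (spd_lam_rad hlam hyc hy i).eq_of_nhds
      have h2 := spd2_lam_rad hlam hyc hy
      have hW := CLam.one_W_pos hL hy.le
      have hcol : ∀ i, col lam D.K i y = CL.nn lam D.K y * Rig.nn c i y := by
        intro i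
        have h := hα y hy i
        unfold alf at h
        have h5 := (div_eq_zero_iff.1 h).resolve_right (Real.sqrt_pos.2 hW).ne'
        rw [hl] at h5
        linarith
      have hsig := hσ y hy i j
      unfold sig at hsig
      rw [hcol, hcol, hl, hl, h2] at hsig
      have hkev : kap lam D.K =ᶠ[𝓝 y] fun z => q ‖z - c‖ := by
        filter_upwards [pos_ev hy] with z hz using (hwq z hz.le).2.1
      have hqd : HasDerivAt q (deriv q ‖y - c‖) ‖y - c‖ :=
        ((hs _ hr).2.differentiableAt (by simp)).hasDerivAt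
      have hdk : ∀ i, Stmt.pd i (kap lam D.K) y = deriv q ‖y - c‖ * Rig.nn c i y := by
        intro i
        have h3 : Stmt.pd i (kap lam D.K) y = Stmt.pd i (fun z => q ‖z - c‖) y := by
          unfold Stmt.pd
          exact hkev.lineDeriv_eq
        have h5 := dp_rad hyc hqd i
        rw [h3, KSN.X2.stmt_pd h5.1, h5.2]
      have hnn : CL.nn lam D.K y = (1 + w ‖y - c‖) * deriv q ‖y - c‖ := by
        rw [h4 y hy, (hwq y hy.le).1]
        congr 1
        simp only [hdk, hl, mul_assoc, ← Finset.mul_sum, sum_nn hyc, mul_one]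
      rw [hnn, (hwq y hy.le).2.1] at hsig
      linarith

end Vale.Agent.P366.CL
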