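import Vale.Agent.P366.H222.CL.Eq
import Vale.Agent.P366.CL.Rad
import Vale.Agent.P366.H707.CL.Area
import Vale.Agent.P366.H208.CL.E4

/-! The Penrose inequality for data foliated by the parallel surfaces of a convex body. -/

open MeasureTheory Metric Filter Topology Set
open scoped ContDiff ENNReal

noncomputable section
namespace Vale.Agent.P366.CL

open Vale.Agent.P366 (pd E)
open Vale.Agent.P366.H353.N
open Vale.Agent.P366.KSL
open Vale.Agent.P366.Kerr (NullCone Psi IsCut IsSchwSlice)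
open Vale.Agent.P366.KSN (Y dts)

variable {n : ℕ} {C : NullCone n} {lam W : E n → ℝ} {D D' : Stmt.Exterior n} {m : ℝ}

lemma leafAt_of_strict {g K : Stmt.Field n} {y : E n} (h : StrictAt lam W g K y) :
    LeafAt lam W g K y := by
  rcases h with ⟨h1, h2⟩ | h
  · refine Or.inl ⟨h1.le, ?_⟩
    rcases h2 with h2 | h2
    · simp [h2]
    · exact h2.le
  · exact Or.inr h.le

/-- the density is nonnegative -/
lemma den_of_leafAt [Fact (3 ≤ n)] (hL : IsLeafExt C lam W D) (hD : D.DEC) {y : E n}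
    (hy : 0 ≤ D.F y) (h : LeafAt lam W D.g D.K y) : 0 ≤ den lam W D.g D.K y := by
  rcases h with ⟨h1, h2⟩ | h
  · exact CLam.den_nonneg hL hD hy h1 h2
  · exact h

/-- **The case of equality.** -/
theorem eq_CL [Fact (3 ≤ n)] (hL : IsLeafExt C lam W D) (hAF : D.IsAF) (hD : D.DEC)
    (hT : D.Trapped) (hm : D.IsEnergy m)
    (hid : ∀ y, 0 < D.F y → ∑ i, pd i (XL lam W D.K i) y = den lam W D.g D.K y)
    (hst : ∀ y, 0 < D.F y → StrictAt lam W D.g D.K y)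
    (hle : m ≤ 1 / 2 * (SI C.toDat.dt / om n) ^ (((n : ℝ) - 2) / ((n : ℝ) - 1))) :
    ∃ c r₀ f, IsSchwSlice c r₀ f D := by
  have hpos : ∀ y, 0 < D.F y → 0 ≤ ∑ i, pd i (XL lam W D.K i) y := fun y hy => by
    rw [hid y hy]
    exact den_of_leafAt hL hD hy.le (leafAt_of_strict (hst y hy))
  obtain ⟨e1, ⟨k, c, hH⟩, e3⟩ := CLE.eq_XL hL hAF hT hm hpos hle
  have hz : ∀ y, 0 < D.F y → |trL lam D.K y| < lapL lam y / √(1 + W y) ∧
      (∀ i, Stmt.mom D.g D.K i y = 0) ∧ (∀ i j, sig lam D.K i j y = 0) ∧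
      (∀ i, alf lam W D.K i y = 0) ∧ ∀ i, acc lam W i y = 0 := by
    intro y hy
    have h0 : den lam W D.g D.K y = 0 := by rw [← hid y hy, e1 y hy.le]
    rcases hst y hy with ⟨h1, h2⟩ | h
    · obtain ⟨-, h3, h5, h6, h7⟩ := CLam.den_zero hL hD hy.le h1 h2 h0.le
      exact ⟨h1, h3, h5, h6, h7⟩
    · linarith
  obtain ⟨r₀, h0, dom, -, hlam, -, w, q, hs, hwq⟩ := rad_of hL hH (fun y hy => e1 y hy.le)
    (fun y hy => (hz y hy).2.2.2.1) (fun y hy => (hz y hy).2.2.2.2) fun x hx => (e3 x hx).1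
  refine ⟨c, r₀, schw_CL hL h0 dom hlam hs hwq ?_ (fun y hy => (hz y hy).2.2.1)
    (fun y hy => (hz y hy).2.2.2.1) fun y hy => CLam.nn_eq_kap hL hy
      ((pos_ev hy).mono fun z hz' => (hz z hz').2.2.2.1) (hz y hy).2.2.1
      (Finset.sum_eq_zero fun i _ => by rw [(hz y hy).2.1 i, zero_mul])⟩
  intro y hy
  obtain ⟨x, s, hx, hsx, rfl⟩ := (CLam.mem_iff hL.toLamS).1 hy
  rcases hsx.lt_or_eq with h | h
  · exact (abs_lt.1 (CLam.rat_lt hL hy (hz _ (CLam.F_pos hL.toLamS hx h)).1)).2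
  · rw [← h, (e3 x hx).2]
    norm_num

/-- **The Penrose inequality for data foliated by the parallel surfaces of a convex body.** -/
theorem main_CL [Fact (3 ≤ n)] (hL : IsLeafExt C lam W D') (hO : IsCut D' D) (hAF : D.IsAF)
    (hD : D'.DEC) (hT : D'.Trapped) (hm : D.IsEnergy m)
    (hid : ∀ y, 0 < D'.F y → ∑ i, pd i (XL lam W D'.K i) y = den lam W D'.g D'.K y)
    (hle : ∀ y, 0 < D'.F y → LeafAt lam W D'.g D'.K y) :
    (D.Amin ≤ D.area D'.F ∧ D.area D'.F ≠ ⊤ ∧ 0 < m ∧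
      (D.Amin.toReal / Stmt.omega n) ^ (((n : ℝ) - 2) / ((n : ℝ) - 1)) / 2 ≤
        ((D.area D'.F).toReal / Stmt.omega n) ^ (((n : ℝ) - 2) / ((n : ℝ) - 1)) / 2 ∧
      ((D.area D'.F).toReal / Stmt.omega n) ^ (((n : ℝ) - 2) / ((n : ℝ) - 1)) / 2 ≤ m) ∧
    ((∀ y, 0 < D'.F y → StrictAt lam W D'.g D'.K y) →
      ((D.area D'.F).toReal / Stmt.omega n) ^ (((n : ℝ) - 2) / ((n : ℝ) - 1)) / 2 = m →
      ∃ c r₀ f, IsSchwSlice c r₀ f D') := by
  have hAF' := KSR.cut_AF hO hAF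
  have hm' := KSR.cut_energy hO hm
  obtain ⟨h1, h2, h3, h5, h6⟩ := area_cutCL hL hO
  have h7 := CLam.main_XL hL hAF' hT hm' fun y hy => by
    rw [hid y hy]
    exact den_of_leafAt hL hD hy.le (hle y hy)
  exact ⟨⟨h1, h2, h3.trans_le h7, h5, h6.trans h7⟩, fun hst heq =>
    eq_CL hL hAF' hD hT hm' hid hst (heq ▸ h6)⟩

end Vale.Agent.P366.CL
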