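import Vale.Agent.P366.H296.Q.Ode

/-! Radial data with the mass function of the Schwarzschild-Tangherlini metric are slices of it. -/

open MeasureTheory Metric Filter Topology Set
open scoped ContDiff ENNReal

noncomputable section
namespace Vale.Agent.P366.CL

open Vale.Agent.P366 (pd E)
open Vale.Agent.P366.H353.N (kd)
open Vale.Agent.P366.KSN.X5 (DP)
open Vale.Agent.P366.KSL (Rig.nn)
open Vale.Agent.P366.KSL.Rig (nn dp_nn dp_rho cd_rho rho_ne sum_nn cd_nn)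
open Vale.Agent.P366.Kerr (NullCone Psi pt sp ksG indG indK lapse con tng nul schw IsSchwSlice)

variable {n : ℕ} {c y : E n} {φ : ℝ → ℝ} {d r₀ : ℝ}

/-- a primitive near `[r₀, ∞)` -/
lemma exists_prim {ψ : ℝ → ℝ} (h : ∀ r, r₀ ≤ r → ∀ᶠ s in 𝓝 r, ContinuousAt ψ s) :
    ∃ φ : ℝ → ℝ, ∀ r, r₀ ≤ r → ∀ᶠ s in 𝓝 r, HasDerivAt φ (ψ s) s := by
  obtain ⟨ε, hε, hb⟩ := Metric.eventually_nhds_iff_ball.1 (h r₀ le_rfl)
  have hc : ∀ s, r₀ - ε < s → ContinuousAt ψ s := by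
    intro s hs
    rcases le_or_gt r₀ s with h1 | h1
    · exact (h s h1).self_of_nhds
    · refine hb s ?_
      rw [mem_ball, Real.dist_eq, abs_lt]
      constructor <;> linarith
  refine ⟨fun r => ∫ t in r₀..r, ψ t, fun r hr => ?_⟩
  filter_upwards [lt_mem_nhds (show r₀ - ε < r by linarith)] with s hs
  have hco : ContinuousOn ψ (Ioi (r₀ - ε)) := fun t ht => (hc t ht).continuousWithinAt
  refine intervalIntegral.integral_hasDerivAt_right ?_ ?_ (hc s hs)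
  · refine ContinuousOn.intervalIntegrable (hco.mono fun t ht => ?_)
    rw [mem_uIcc] at ht
    rw [mem_Ioi]
    rcases ht with h1 | h1
    · linarith [h1.1]
    · linarith [h1.1]
  · exact hco.stronglyMeasurableAtFilter isOpen_Ioi s hs

/-- derivative of a radial function -/
lemma dp_rad (hy : y ≠ c) (h : HasDerivAt φ d ‖y - c‖) (i : Fin n) :
    DP i (fun z => φ ‖z - c‖) (d * nn c i y) y := by
  have h1 := dp_rho hy i
  have h2 := h.comp_hasFDerivAt y h1.1.hasFDerivAt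
  refine ⟨h2.differentiableAt, ?_⟩
  have h3 := h1.2
  unfold Vale.Agent.P366.pd at h3 ⊢
  rw [show (fun z => φ ‖z - c‖) = φ ∘ fun z => ‖z - c‖ from rfl, h2.fderiv]
  rw [smul_apply, h3, smul_eq_mul]

lemma tendsto_rho (y c : E n) : Tendsto (fun z : E n => ‖z - c‖) (𝓝 y) (𝓝 ‖y - c‖) :=
  ((continuous_id.sub continuous_const).norm).tendsto y

/-- first derivatives of a radial function, near a point -/
lemma spd_rad {ψ : ℝ → ℝ} (hy : y ≠ c) (h : ∀ᶠ s in 𝓝 ‖y - c‖, HasDerivAt φ (ψ s) s)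
    (i : Fin n) : Stmt.pd i (fun z => φ ‖z - c‖) =ᶠ[𝓝 y] fun z => ψ ‖z - c‖ * nn c i z := by
  filter_upwards [(tendsto_rho y c).eventually h, isOpen_ne.mem_nhds hy] with z h1 h2
  have h3 := dp_rad h2 h1 i
  rw [KSN.X2.stmt_pd h3.1, h3.2]

/-- second derivatives of a radial function -/
lemma spd2_rad {ψ : ℝ → ℝ} {ψ' : ℝ} (hy : y ≠ c)
    (h : ∀ᶠ s in 𝓝 ‖y - c‖, HasDerivAt φ (ψ s) s) (h' : HasDerivAt ψ ψ' ‖y - c‖)
    (i j : Fin n) : Stmt.pd i (Stmt.pd j (fun z => φ ‖z - c‖)) y =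
      ψ' * (nn c i y * nn c j y) +
        ψ ‖y - c‖ * ((kd i j - nn c i y * nn c j y) / ‖y - c‖) := by
  have h1 := spd_rad hy h j
  have h2 := (dp_rad hy h' i).mul (dp_nn hy j i)
  have h3 : Stmt.pd i (Stmt.pd j (fun z => φ ‖z - c‖)) y =
      Stmt.pd i (fun z => ψ ‖z - c‖ * nn c j z) y := by
    unfold Stmt.pd
    exact h1.lineDeriv_eq
  rw [h3, KSN.X2.stmt_pd h2.1, h2.2]
  have : kd j i = kd i j := by unfold kd; simp only [eq_comm]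
  rw [this]
  ring

/-- the algebra of the radial slices -/
lemma rad_alg {w q w' q' u V V' ψ' T S : ℝ} (hu : 0 < u) (hw : u ^ 2 = 1 + w)
    (hT : T = q * u) (hT1 : T < 1) (hS : S = u ^ 2 / (1 - T))
    (hV : V = 1 - (1 + w)⁻¹ + q ^ 2) (hV' : V' = w' / (1 + w) ^ 2 + 2 * q * q')
    (hψ' : ψ' = w' / (1 - T) + (1 + w) * (q' * u + q * (w' / (2 * u))) / (1 - T) ^ 2) :
    w = -(S - 1) ^ 2 + V * S ^ 2 ∧ (S - 1) - V * S = q * u ∧
      ψ' - S ^ 2 * V' + (q * u) * V' * S ^ 2 / 2 = u * (1 + w) * q' := by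
  have h1 : (1 - T) ≠ 0 := by linarith
  have hu0 := hu.ne'
  have hw' : w = u ^ 2 - 1 := by linarith
  subst hw' hT
  have h2 : (1 : ℝ) - q * u ≠ 0 := h1
  have h3 : (1 : ℝ) - u * q ≠ 0 := by rwa [mul_comm]
  have e : (1 : ℝ) + (u ^ 2 - 1) = u ^ 2 := by ring
  rw [e] at hV hV' hψ'
  subst hS hV hV' hψ'
  refine ⟨?_, ?_, ?_⟩
  · field_simp
    ring
  · field_simp
    ring
  · rw [e]
    field_simp
    ring

/-- the function `V` of the Schwarzschild-Tangherlini metric -/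
def VS (c : E n) (r₀ : ℝ) (p : E (n + 1)) : ℝ := (r₀ / Stmt.len (sp p - c)) ^ (n - 2)

lemma deriv_pow (hr : d ≠ 0) (r₀ : ℝ) (k : ℕ) :
    HasDerivAt (fun s : ℝ => (r₀ / s) ^ k) (-(k * (r₀ / d) ^ k / d)) d := by
  have h1 : HasDerivAt (fun s : ℝ => r₀ / s) (-(r₀ / d ^ 2)) d := by
    have h := (hasDerivAt_inv hr).const_mul r₀
    have e : r₀ * -(d ^ 2)⁻¹ = -(r₀ / d ^ 2) := by rw [div_eq_mul_inv]; ring
    rw [e] at h
    exact h
  have h2 := h1.pow k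
  rcases Nat.eq_zero_or_pos k with h0 | h0
  · subst h0
    simpa using hasDerivAt_const d (1 : ℝ)
  · have e : (k : ℝ) * (r₀ / d) ^ (k - 1) * (-(r₀ / d ^ 2)) = -(k * (r₀ / d) ^ k / d) := by
      obtain ⟨j, rfl⟩ : ∃ j, k = j + 1 := ⟨k - 1, by omega⟩
      rw [Nat.add_sub_cancel, pow_succ (r₀ / d) j]
      field_simp
    rw [e] at h2
    exact h2

lemma sp_pt' (t : ℝ) (y : E n) : sp (pt t y) = y := KSN.X2.sp_pt t y

lemma cd_VS (t : ℝ) (hy : y ≠ c) (r₀ : ℝ) : ContDiffAt ℝ ∞ (VS c r₀) (pt t y) := by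
  have h1 : sp (pt t y) ≠ c := by rwa [sp_pt']
  have h2 : ContDiffAt ℝ ∞ (fun p : E (n + 1) => ‖sp p - c‖) (pt t y) :=
    ContDiffAt.comp (g := fun z : E n => ‖z - c‖) (f := sp) (pt t y) (cd_rho h1)
      KSN.sp_contDiff.contDiffAt
  exact (contDiffAt_const.div h2 (rho_ne h1)).pow _

lemma pd_VS [Fact (3 ≤ n)] (t : ℝ) (hy : y ≠ c) : pd 0 (VS c r₀) (pt t y) = 0 ∧
    ∀ i : Fin n, pd i.succ (VS c r₀) (pt t y) =
      -(((n - 2 : ℕ) : ℝ) * (r₀ / ‖y - c‖) ^ (n - 2) / ‖y - c‖) * nn c i y := by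
  have hn3 := Fact.out (p := 3 ≤ n)
  have h1 := fun i => dp_rad hy (deriv_pow (rho_ne hy) r₀ (n - 2)) i
  have h2 : DifferentiableAt ℝ (fun z : E n => (r₀ / ‖z - c‖) ^ (n - 2)) (sp (pt t y)) := by
    rw [sp_pt']
    have : 0 < n := by omega
    exact (h1 ⟨0, this⟩).1
  have h3 := KSL.dp_sp (p := pt t y) (F := fun z : E n => (r₀ / ‖z - c‖) ^ (n - 2)) h2
  refine ⟨h3.1.2, fun i => ?_⟩
  have h4 := (h3.2 i).2
  rw [sp_pt', (h1 i).2] at h4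
  exact h4

/-- **Radial data with the mass function of Schwarzschild-Tangherlini**: pointwise form. -/
theorem rad_pt [Fact (3 ≤ n)] {φ ψ w q : ℝ → ℝ} {w' q' ψ' : ℝ} (hy : y ≠ c)
    (hφ : ∀ᶠ s in 𝓝 ‖y - c‖, HasDerivAt φ (ψ s) s) (hψ : HasDerivAt ψ ψ' ‖y - c‖)
    (hw : 0 < 1 + w ‖y - c‖) (hT : q ‖y - c‖ * √(1 + w ‖y - c‖) < 1)
    (hψ0 : ψ ‖y - c‖ = (1 + w ‖y - c‖) / (1 - q ‖y - c‖ * √(1 + w ‖y - c‖)) - 1)
    (hψ1 : ψ' = w' / (1 - q ‖y - c‖ * √(1 + w ‖y - c‖)) + (1 + w ‖y - c‖) *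
      (q' * √(1 + w ‖y - c‖) + q ‖y - c‖ * (w' / (2 * √(1 + w ‖y - c‖)))) /
        (1 - q ‖y - c‖ * √(1 + w ‖y - c‖)) ^ 2)
    (hV : (r₀ / ‖y - c‖) ^ (n - 2) = 1 - (1 + w ‖y - c‖)⁻¹ + q ‖y - c‖ ^ 2)
    (hV' : -(((n - 2 : ℕ) : ℝ) * (r₀ / ‖y - c‖) ^ (n - 2) / ‖y - c‖) =
      w' / (1 + w ‖y - c‖) ^ 2 + 2 * q ‖y - c‖ * q') (i j : Fin n) :
    indG (schw c r₀) (fun z => φ ‖z - c‖) y i j =
        kd i j + w ‖y - c‖ * nn c i y * nn c j y ∧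
      indK (schw c r₀) (fun z => φ ‖z - c‖) y i j =
        (1 + w ‖y - c‖) * q' * (nn c i y * nn c j y) +
          q ‖y - c‖ * ((kd i j - nn c i y * nn c j y) / ‖y - c‖) := by
  set f : E n → ℝ := fun z => φ ‖z - c‖ with hf
  obtain ⟨r, hr⟩ : ∃ r, r = ‖y - c‖ := ⟨_, rfl⟩
  obtain ⟨u, hu⟩ : ∃ u, u = √(1 + w ‖y - c‖) := ⟨_, rfl⟩
  have hu0 : 0 < u := by rw [hu]; exact Real.sqrt_pos.2 hw
  have hu2 : u ^ 2 = 1 + w ‖y - c‖ := by rw [hu]; exact Real.sq_sqrt hw.le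
  have hf1 : ∀ i, Stmt.pd i f y = ψ ‖y - c‖ * nn c i y := fun i =>
    (spd_rad hy hφ i).eq_of_nhds
  have hf2 := spd2_rad hy hφ hψ
  have hid : ∀ᶠ s in 𝓝 ‖y - c‖, HasDerivAt (fun s : ℝ => s) ((fun _ => 1) s) s :=
    Eventually.of_forall fun s => hasDerivAt_id s
  have hl1 : ∀ i, Stmt.pd i (fun z : E n => Stmt.len (z - c)) y = nn c i y := fun i => by
    have := (spd_rad hy hid i).eq_of_nhds
    rw [one_mul] at this
    exact this
  have hl2 : ∀ i j, Stmt.pd i (Stmt.pd j (fun z : E n => Stmt.len (z - c))) y =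
      (kd i j - nn c i y * nn c j y) / ‖y - c‖ := fun i j => by
    have := spd2_rad hy hid (hasDerivAt_const ‖y - c‖ (1 : ℝ)) i j
    rw [zero_mul, zero_add, one_mul] at this
    exact this
  have hlc : ContDiffAt ℝ ∞ (fun z : E n => Stmt.len (z - c)) y := cd_rho hy
  have hlg : ∑ i, pd i (fun z : E n => Stmt.len (z - c)) y ^ 2 = 1 := by
    rw [← sum_nn hy]
    refine Finset.sum_congr rfl fun i _ => ?_
    rw [← KSN.X2.stmt_pd (hlc.differentiableAt (by simp)), hl1]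
    ring
  have hVc := cd_VS (c := c) (y := y) (f y) hy r₀
  have hVv : VS c r₀ (pt (f y) y) = (r₀ / ‖y - c‖) ^ (n - 2) := by
    unfold VS
    rw [sp_pt']
    rfl
  obtain ⟨hV0, hVi⟩ := pd_VS (c := c) (y := y) (r₀ := r₀) (f y) hy
  have hs1 : ∑ k, Stmt.pd k f y * Stmt.pd k (fun z : E n => Stmt.len (z - c)) y = ψ ‖y - c‖ := by
    simp only [hf1, hl1, mul_assoc, ← Finset.mul_sum, sum_nn hy, mul_one]
  have hs2 : ∑ k, Stmt.pd k f y * Stmt.pd k f y = ψ ‖y - c‖ ^ 2 := by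
    have : ∀ k, Stmt.pd k f y * Stmt.pd k f y = ψ ‖y - c‖ ^ 2 * (nn c k y * nn c k y) := fun k => by
      rw [hf1]; ring
    simp only [this, ← Finset.mul_sum, sum_nn hy, mul_one]
  have hs3 : ∑ k : Fin n, Stmt.pd k f y * pd k.succ (VS c r₀) (pt (f y) y) = ψ ‖y - c‖ *
      -(((n - 2 : ℕ) : ℝ) * (r₀ / ‖y - c‖) ^ (n - 2) / ‖y - c‖) := by
    have : ∀ k : Fin n, Stmt.pd k f y * pd k.succ (VS c r₀) (pt (f y) y) = (ψ ‖y - c‖ *
      -(((n - 2 : ℕ) : ℝ) * (r₀ / ‖y - c‖) ^ (n - 2) / ‖y - c‖)) * (nn c k y * nn c k y) := by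
      intro k
      rw [hf1, hVi]; ring
    simp only [this, ← Finset.mul_sum, sum_nn hy, mul_one]
  have hs4 : ∑ k : Fin n, Stmt.pd k (fun z : E n => Stmt.len (z - c)) y *
      pd k.succ (VS c r₀) (pt (f y) y) =
      -(((n - 2 : ℕ) : ℝ) * (r₀ / ‖y - c‖) ^ (n - 2) / ‖y - c‖) := by
    have : ∀ k : Fin n, Stmt.pd k (fun z : E n => Stmt.len (z - c)) y *
        pd k.succ (VS c r₀) (pt (f y) y) =
        (-(((n - 2 : ℕ) : ℝ) * (r₀ / ‖y - c‖) ^ (n - 2) / ‖y - c‖)) * (nn c k y * nn c k y) := by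
      intro k
      rw [hl1, hVi]; ring
    simp only [this, ← Finset.mul_sum, sum_nn hy, mul_one]
  obtain ⟨T, hTd⟩ : ∃ T, T = q ‖y - c‖ * u := ⟨_, rfl⟩
  have hT1 : T < 1 := by rw [hTd, hu]; exact hT
  rw [← hu, ← hTd] at hψ0 hψ1
  obtain ⟨a1, a2, a3⟩ := rad_alg (w := w ‖y - c‖) (q := q ‖y - c‖) (w' := w') (q' := q')
    (V := (r₀ / ‖y - c‖) ^ (n - 2))
    (V' := -(((n - 2 : ℕ) : ℝ) * (r₀ / ‖y - c‖) ^ (n - 2) / ‖y - c‖)) (ψ' := ψ') (T := T)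
    (S := 1 + ψ ‖y - c‖) hu0 hu2 hTd hT1 (by rw [hψ0, hu2]; ring) hV hV' hψ1
  rw [add_sub_cancel_left] at a1 a2
  have hsch : schw c r₀ = ksG (fun z : E n => Stmt.len (z - c)) (VS c r₀) := rfl
  rw [hsch]
  constructor
  · rw [KSN.X2.indG_eq, hVv, hf1, hf1, hl1, hl1]
    unfold H375.dl kd
    rw [a1]
    ring
  · rw [KSN.X2.indK_eq hlc hlg hVc, KSN.X2.lapse_eq _ _ (by
      rw [← sum_nn hy]
      exact Finset.sum_congr rfl fun i _ => by rw [hl1]), hs1, hs2, hs3, hs4, hVv, hV0, hf2, hl2]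
    simp only [KSN.X2.cot, hV0, hVi, hf1, hl1]
    have hlap : 1 / √(1 - ψ ‖y - c‖ ^ 2 + (r₀ / ‖y - c‖) ^ (n - 2) * (1 + ψ ‖y - c‖) ^ 2) =
        1 / u := by
      rw [hu]
      congr 2
      linarith
    rw [hlap]
    generalize (r₀ / ‖y - c‖) ^ (n - 2) = v at *
    generalize -(((n - 2 : ℕ) : ℝ) * v / ‖y - c‖) = v' at *
    have hr0 := rho_ne hy
    generalize ‖y - c‖ = ρ at *
    generalize nn c i y = a
    generalize nn c j y = b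
    generalize kd i j = δ
    have hun := hu0.ne'
    have e1 : ψ ρ = q ρ * u + v * (1 + ψ ρ) := by linarith
    have e2 : ψ' = (1 + ψ ρ) ^ 2 * v' - q ρ * u * v' * (1 + ψ ρ) ^ 2 / 2 +
      u * (1 + w ρ) * q' := by linarith
    have hin : ψ' * (a * b) + ψ ρ * ((δ - a * b) / ρ) - v * (1 + ψ ρ) * ((δ - a * b) / ρ) -
          (1 + ψ ρ) / 2 * ((0 * (ψ ρ * a) + v' * a) * (ψ ρ * b + b) +
            (0 * (ψ ρ * b) + v' * b) * (ψ ρ * a + a)) +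
        (0 + ψ ρ * v' - v * (1 + ψ ρ) * (-0 + v')) / 2 * ((ψ ρ * a + a) * (ψ ρ * b + b)) =
        u * ((1 + w ρ) * q' * (a * b) + q ρ * ((δ - a * b) / ρ)) := by
      generalize (δ - a * b) / ρ = X
      linear_combination (a * b) * e2 + (X + v' / 2 * (1 + ψ ρ) ^ 2 * (a * b)) * e1
    rw [hin]
    field_simp

/-- **Radial data with the mass function of Schwarzschild-Tangherlini are slices of it.** -/
theorem schw_of_rad [Fact (3 ≤ n)] {D : Stmt.Exterior n} (h0 : 0 < r₀)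
    (dom : ∀ y, 0 ≤ D.F y ↔ r₀ ≤ ‖y - c‖) {w q : ℝ → ℝ}
    (hs : ∀ r, r₀ ≤ r → ContDiffAt ℝ ∞ w r ∧ ContDiffAt ℝ ∞ q r)
    (hw : ∀ r, r₀ ≤ r → 0 < 1 + w r) (hT : ∀ r, r₀ ≤ r → q r * √(1 + w r) < 1)
    (hV : ∀ r, r₀ ≤ r → (r₀ / r) ^ (n - 2) = 1 - (1 + w r)⁻¹ + q r ^ 2)
    (hg : ∀ y, 0 ≤ D.F y → ∀ i j, D.g y i j =
      kd i j + w ‖y - c‖ * nn c i y * nn c j y)
    (hK : ∀ y, 0 ≤ D.F y → ∀ i j, D.K y i j =
      (1 + w ‖y - c‖) * deriv q ‖y - c‖ * (nn c i y * nn c j y) +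
          q ‖y - c‖ * ((kd i j - nn c i y * nn c j y) / ‖y - c‖)) :
    ∃ f, IsSchwSlice c r₀ f D := by
  set ψ : ℝ → ℝ := fun s => (1 + w s) / (1 - q s * √(1 + w s)) - 1 with hψ
  have hw1 : ∀ r, r₀ ≤ r → ContDiffAt ℝ ∞ (fun s => √(1 + w s)) r := fun r hr =>
    (contDiffAt_const.add (hs r hr).1).sqrt (hw r hr).ne'
  have hT1 : ∀ r, r₀ ≤ r → 1 - q r * √(1 + w r) ≠ 0 := fun r hr => by linarith [hT r hr]
  have hψs : ∀ r, r₀ ≤ r → ContDiffAt ℝ ∞ ψ r := fun r hr =>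
    ((contDiffAt_const.add (hs r hr).1).div
      (contDiffAt_const.sub ((hs r hr).2.mul (hw1 r hr))) (hT1 r hr)).sub contDiffAt_const
  obtain ⟨φ, hφ⟩ := exists_prim (ψ := ψ) (r₀ := r₀) fun r hr => by
    have h1 : ∀ᶠ s in 𝓝 r, ContDiffAt ℝ 0 ψ s :=
      ((hψs r hr).of_le (by simp)).eventually (by simp)
    filter_upwards [h1] with s hs using hs.continuousAt
  refine ⟨fun z => φ ‖z - c‖, h0, dom, ?_, ?_⟩
  all_goals
    intro y hy i j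
    have hr : r₀ ≤ ‖y - c‖ := (dom y).1 hy
    have hyc : y ≠ c := by
      intro h
      rw [h, sub_self, norm_zero] at hr
      linarith
    have hwd : HasDerivAt w (deriv w ‖y - c‖) ‖y - c‖ :=
      ((hs _ hr).1.differentiableAt (by simp)).hasDerivAt
    have hqd : HasDerivAt q (deriv q ‖y - c‖) ‖y - c‖ :=
      ((hs _ hr).2.differentiableAt (by simp)).hasDerivAt
    have hud : HasDerivAt (fun s => √(1 + w s)) (deriv w ‖y - c‖ / (2 * √(1 + w ‖y - c‖)))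
        ‖y - c‖ := (hwd.const_add 1).sqrt (hw _ hr).ne'
    have hψd : HasDerivAt ψ (deriv w ‖y - c‖ / (1 - q ‖y - c‖ * √(1 + w ‖y - c‖)) +
        (1 + w ‖y - c‖) * (deriv q ‖y - c‖ * √(1 + w ‖y - c‖) +
          q ‖y - c‖ * (deriv w ‖y - c‖ / (2 * √(1 + w ‖y - c‖)))) /
          (1 - q ‖y - c‖ * √(1 + w ‖y - c‖)) ^ 2) ‖y - c‖ := by
      have h := ((hwd.const_add 1).div ((hqd.mul hud).const_sub 1) (hT1 _ hr)).sub_const 1
      refine h.congr_deriv ?_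
      have := hT1 _ hr
      simp only [Pi.mul_apply]
      field_simp
      ring
    have hG1 : HasDerivAt (fun s => 1 - (1 + w s)⁻¹ + q s ^ 2)
        (deriv w ‖y - c‖ / (1 + w ‖y - c‖) ^ 2 + 2 * q ‖y - c‖ * deriv q ‖y - c‖) ‖y - c‖ := by
      have h := (((hwd.const_add 1).inv (hw _ hr).ne').const_sub 1).add (hqd.pow 2)
      refine h.congr_deriv ?_
      have := (hw _ hr).ne'
      simp
      field_simp
    have hG2 := deriv_pow (d := ‖y - c‖) (rho_ne hyc) r₀ (n - 2)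
    have hV' : -(((n - 2 : ℕ) : ℝ) * (r₀ / ‖y - c‖) ^ (n - 2) / ‖y - c‖) =
        deriv w ‖y - c‖ / (1 + w ‖y - c‖) ^ 2 + 2 * q ‖y - c‖ * deriv q ‖y - c‖ := by
      have h1 : HasDerivWithinAt (fun s => 1 - (1 + w s)⁻¹ + q s ^ 2)
          (-(((n - 2 : ℕ) : ℝ) * (r₀ / ‖y - c‖) ^ (n - 2) / ‖y - c‖)) (Ici r₀) ‖y - c‖ :=
        hG2.hasDerivWithinAt.congr (fun s hs => (hV s hs).symm) (hV _ hr).symm
      exact (uniqueDiffOn_Ici r₀ _ hr).eq_deriv _ h1 hG1.hasDerivWithinAt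
    obtain ⟨e1, e2⟩ := rad_pt (c := c) (y := y) (r₀ := r₀) (φ := φ) (ψ := ψ) (w := w) (q := q)
      hyc (hφ _ hr) hψd (hw _ hr) (hT _ hr) rfl rfl (hV _ hr) hV' i j
  · rw [e1, hg y hy]
  · rw [e2, hK y hy]

end Vale.Agent.P366.CL
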