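import Vale.Agent.P366.H222.CL.Main
import Vale.Agent.P366.CL.DefsS
import Vale.Agent.P366.H375.CH.Out

/-! From support functions to null cones. -/

open MeasureTheory Metric Filter Topology Set
open scoped ContDiff ENNReal

noncomputable section
namespace Vale.Agent.P366.CL

open Vale.Agent.P366 (pd E)
open Vale.Agent.P366.KSL
open Vale.Agent.P366.Kerr (NullCone Psi IsCut IsSchwSlice)
open Vale.Agent.P366.KSN (Y dts exists_unit Y_eq)
open Vale.Agent.P366.Convex (ray IsSupport)

variable {n : ℕ} {C : NullCone n} {h lam lam' W : E n → ℝ} {D D' : Stmt.Exterior n} {m : ℝ}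
  {g K : Stmt.Field n} {y : E n}

/-- `λ + 1` has the derivatives of `λ` -/
lemma pd_shift (lam : E n → ℝ) (i : Fin n) :
    Stmt.pd i (fun z => lam z + 1) = Stmt.pd i lam := by
  funext y
  unfold Stmt.pd lineDeriv
  rw [deriv_add_const]

section
variable (hp : ∀ i : Fin n, Stmt.pd i lam' = Stmt.pd i lam)
include hp

lemma lapL_congr : lapL lam' = lapL lam := by
  funext y
  unfold lapL
  simp only [hp]

lemma col_congr (K : Stmt.Field n) : col lam' K = col lam K := by
  funext i y
  unfold col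
  simp only [hp]

lemma nn_congr (K : Stmt.Field n) : nn lam' K = nn lam K := by
  funext y
  unfold nn
  simp only [hp, col_congr hp]

lemma trL_congr (K : Stmt.Field n) : trL lam' K = trL lam K := by
  funext y
  unfold trL
  simp only [nn_congr hp]

lemma kap_congr (K : Stmt.Field n) : kap lam' K = kap lam K := by
  funext y
  unfold kap
  simp only [trL_congr hp, lapL_congr hp]

lemma rat_congr (W : E n → ℝ) (K : Stmt.Field n) : rat lam' W K = rat lam W K := by
  funext y
  unfold rat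
  simp only [kap_congr hp]

lemma alf_congr (W : E n → ℝ) (K : Stmt.Field n) : alf lam' W K = alf lam W K := by
  funext i y
  unfold alf
  simp only [nn_congr hp, col_congr hp, hp]

lemma sig_congr (K : Stmt.Field n) : sig lam' K = sig lam K := by
  funext i j y
  unfold sig
  simp only [nn_congr hp, col_congr hp, kap_congr hp, hp]

lemma grd_congr (φ : E n → ℝ) : grd lam' φ = grd lam φ := by
  funext i y
  unfold grd
  simp only [hp]

lemma acc_congr (W : E n → ℝ) : acc lam' W = acc lam W := by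
  funext i y
  unfold acc
  simp only [grd_congr hp]

lemma den_congr (W : E n → ℝ) (g K : Stmt.Field n) : den lam' W g K = den lam W g K := by
  funext y
  unfold den
  simp only [rat_congr hp, sig_congr hp, alf_congr hp, acc_congr hp, grd_congr hp, hp]

lemma leafAt_congr : LeafAt lam' W g K y ↔ LeafAt lam W g K y := by
  unfold LeafAt
  simp only [trL_congr hp, lapL_congr hp, alf_congr hp, grd_congr hp, rat_congr hp, den_congr hp]

lemma strictAt_congr : StrictAt lam' W g K y ↔ StrictAt lam W g K y := by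
  unfold StrictAt
  simp only [trL_congr hp, lapL_congr hp, alf_congr hp, grd_congr hp, rat_congr hp, den_congr hp]

end

/-- the exterior in terms of the rays -/
lemma leaves_dom [Fact (3 ≤ n)] (hh : IsSupport h) (hL : IsLeaves h lam W D) (y : E n) :
    0 ≤ D.F y ↔ ∃ x s, ‖x‖ = 1 ∧ 0 ≤ s ∧ ray h x s = y := by
  rw [← CH.ray_out_le hh y, ← not_lt, hL.dom y]
  push Not
  rfl

/-- the boundary in terms of the rays -/
lemma leaves_bdr [Fact (3 ≤ n)] (hh : IsSupport h) (hL : IsLeaves h lam W D) {x : E n}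
    (hx : ‖x‖ = 1) : D.F (ray h x 0) = 0 := by
  have hB := CH.bodies_of (ι := Unit) (h := fun _ => h) (fun _ => hh) D.dom.1.continuous
    (fun j k hjk => absurd (Subsingleton.elim j k) hjk) (fun y => by
      rw [hL.dom y]
      exact ⟨fun h1 => ⟨(), h1⟩, fun ⟨_, h1⟩ => h1⟩)
  have h1 := hB.bdr () x hx
  rwa [CH.bp_sup hh hx] at h1

/-- The data of a convex body in terms of a null cone. -/
theorem toLeafExt [Fact (3 ≤ n)] (hh : IsSupport h) (hU : ∀ x, x ≠ 0 → C.U x = 1)
    (hY : ∀ x s, ‖x‖ = 1 → Y C.H x (1 + s) = ray h x s) (hL : IsLeaves h lam W D) :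
    IsLeafExt C (fun z => lam z + 1) W D where
  cst := ⟨1, hU⟩
  dom := by
    intro y
    rw [leaves_dom hh hL y]
    constructor
    · rintro ⟨x, s, hx, hs, rfl⟩
      have hx' : ‖x‖ = 1 := hx
      have h1 : 0 < 1 + s := by linarith
      have hx0 : x ≠ 0 := by
        intro h0
        rw [h0, norm_zero] at hx'
        norm_num at hx'
      have h2 : (1 + s) • x ≠ 0 := smul_ne_zero h1.ne' hx0
      refine ⟨(1 + s) • x, h2, ?_, ?_⟩
      · rw [hU _ h2, norm_smul, Real.norm_eq_abs, abs_of_pos h1, hx', mul_one]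
        linarith
      · rw [Y_eq C hx' h1, hY x s hx']
    · rintro ⟨z, hz, hz1, rfl⟩
      obtain ⟨x, hx, hzx⟩ := exists_unit hz
      have hn : 0 < ‖z‖ := norm_pos_iff.2 hz
      rw [hU z hz] at hz1
      refine ⟨x, ‖z‖ - 1, hx, by linarith, ?_⟩
      rw [← hY x _ hx, add_sub_cancel, ← Y_eq C hx hn, ← hzx]
  bdF := by
    intro z hz hz1
    rw [hU z hz] at hz1
    have h1 := Y_eq C hz1 (show (0 : ℝ) < 1 by norm_num)
    rw [one_smul] at h1
    have h2 := hY z 0 hz1
    rw [add_zero] at h2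
    rw [h1, h2]
    exact leaves_bdr hh hL hz1
  smL := fun y hy => (hL.smL y hy).add contDiffAt_const
  eqL := by
    intro z hz hz1
    obtain ⟨x, hx, hzx⟩ := exists_unit hz
    have hn : 0 < ‖z‖ := norm_pos_iff.2 hz
    rw [hU z hz] at hz1
    have h1 : Psi C.H z = ray h x (‖z‖ - 1) := by
      rw [← hY x _ hx, add_sub_cancel, ← Y_eq C hx hn, ← hzx]
    show lam (Psi C.H z) + 1 = ‖z‖
    rw [h1, hL.eqL x _ hx (by linarith)]
    ring
  smW := hL.smW
  met := by
    intro y hy i j
    rw [pd_shift, pd_shift]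
    exact hL.met y hy i j

/-- The Penrose inequality for data foliated by the parallel surfaces of a convex body, from the
null cone and the divergence identity. -/
theorem sup_CL [Fact (3 ≤ n)] (hh : IsSupport h) (hU : ∀ x, x ≠ 0 → C.U x = 1)
    (hY : ∀ x s, ‖x‖ = 1 → Y C.H x (1 + s) = ray h x s) (hL : IsLeaves h lam W D')
    (hid : ∀ {lam : E n → ℝ} {D : Stmt.Exterior n}, IsLeafExt C lam W D →
      ∀ y, 0 < D.F y → ∑ i, pd i (XL lam W D.K i) y = den lam W D.g D.K y)
    (hO : IsCut D' D) (hAF : D.IsAF) (hD : D'.DEC) (hT : D'.Trapped) (hm : D.IsEnergy m)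
    (hle : ∀ y, 0 < D'.F y → LeafAt lam W D'.g D'.K y) :
    (D.Amin ≤ D.area D'.F ∧ D.area D'.F ≠ ⊤ ∧ 0 < m ∧
      (D.Amin.toReal / Stmt.omega n) ^ (((n : ℝ) - 2) / ((n : ℝ) - 1)) / 2 ≤
        ((D.area D'.F).toReal / Stmt.omega n) ^ (((n : ℝ) - 2) / ((n : ℝ) - 1)) / 2 ∧
      ((D.area D'.F).toReal / Stmt.omega n) ^ (((n : ℝ) - 2) / ((n : ℝ) - 1)) / 2 ≤ m) ∧
    ((∀ y, 0 < D'.F y → StrictAt lam W D'.g D'.K y) →
      ((D.area D'.F).toReal / Stmt.omega n) ^ (((n : ℝ) - 2) / ((n : ℝ) - 1)) / 2 = m →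
      ∃ c r₀ f, IsSchwSlice c r₀ f D') := by
  have hL' := toLeafExt hh hU hY hL
  obtain ⟨h1, h2⟩ := main_CL hL' hO hAF hD hT hm (hid hL') fun y hy =>
    (leafAt_congr (pd_shift lam)).2 (hle y hy)
  exact ⟨h1, fun hst => h2 fun y hy => (strictAt_congr (pd_shift lam)).2 (hst y hy)⟩

end Vale.Agent.P366.CL
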